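import Vale.Agent.P088.R2.H961.F.Cvx2
import Vale.Agent.P088.R2.H313.EP.MuE
import Vale.Agent.P088.R2.H238.C.Loc

/-!
# P088, zone B1: the level `lv` is a quadratic function; the convex extension of `s + μc(s)`
-/

open Finset Set Filter
open scoped ContDiff Topology

noncomputable section

namespace Vale.Agent.P088.R2.H961.F

open Vale.Agent.P088.LR Vale.Agent.P088.HY
open Vale.Agent.P088.HY.T3 (e0)
open Vale.Agent.P088.R2.H31.EP (lv Cst Pk PkOk EvC)
open Vale.Agent.P088.R2.H313.Mu (sw sz b1 b1_small)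
open Vale.Agent.P088.R2.H313.EP (MuOk muD muD0 muG muG0)

variable {n : ℕ}

/-! ## The quadratic function -/

theorem fd_coord {φ φ' : Fin n → ℝ → ℝ} (h : ∀ i t, HasDerivAt (φ i) (φ' i t) t) (p : V n) :
    HasFDerivAt (fun p : V n => ∑ i, φ i (p i))
      (∑ i, φ' i (p i) • (ContinuousLinearMap.proj i : V n →L[ℝ] ℝ)) p :=
  HasFDerivAt.fun_sum fun i _ => (h i (p i)).comp_hasFDerivAt p (hasFDerivAt_apply i p)

variable {σ R kap Gs : ℝ}

theorem lv_form (p : V n) : lv n σ R kap Gs p = (Real.log (kap / R) - R * (1 + Gs)) +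
    ∑ i, (R * (R⁻¹ * p i * e0 n i) + R * (σ / 2) * (R⁻¹ * p i - e0 n i) ^ 2) := by
  unfold lv T4.gy HY.sq
  simp only [Pi.smul_apply, Pi.sub_apply, smul_eq_mul, Finset.sum_add_distrib, ← Finset.mul_sum]
  ring

theorem lv_has (p : V n) : HasFDerivAt (lv n σ R kap Gs)
    (∑ i, (R * (R⁻¹ * e0 n i) + R * (σ / 2) * (2 * (R⁻¹ * p i - e0 n i) * R⁻¹)) •
      (ContinuousLinearMap.proj i : V n →L[ℝ] ℝ)) p := by
  have h := fd_coord (φ := fun i t => R * (R⁻¹ * t * e0 n i) + R * (σ / 2) * (R⁻¹ * t - e0 n i) ^ 2)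
    (φ' := fun i t => R * (R⁻¹ * e0 n i) + R * (σ / 2) * (2 * (R⁻¹ * t - e0 n i) * R⁻¹))
    (fun i t => by
      have h1 : HasDerivAt (fun t : ℝ => R⁻¹ * t) R⁻¹ t := by
        simpa using (hasDerivAt_id t).const_mul R⁻¹
      have h2 := ((h1.mul_const (e0 n i)).const_mul R).add
        (((h1.sub_const (e0 n i)).pow 2).const_mul (R * (σ / 2)))
      refine h2.congr_deriv ?_
      simp) p
  have e : lv n σ R kap Gs = fun p => (Real.log (kap / R) - R * (1 + Gs)) +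
      ∑ i, (R * (R⁻¹ * p i * e0 n i) + R * (σ / 2) * (R⁻¹ * p i - e0 n i) ^ 2) :=
    funext lv_form
  rw [e]
  exact h.const_add _

theorem lv_cd : ContDiff ℝ ∞ (lv n σ R kap Gs) := by
  have e : lv n σ R kap Gs = fun p => (Real.log (kap / R) - R * (1 + Gs)) +
      ∑ i, (R * (R⁻¹ * p i * e0 n i) + R * (σ / 2) * (R⁻¹ * p i - e0 n i) ^ 2) :=
    funext lv_form
  rw [e]
  refine contDiff_const.add (ContDiff.sum fun i _ => ?_)
  have h : ContDiff ℝ ∞ fun p : V n => p i := contDiff_apply ℝ ℝ i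
  exact (contDiff_const.mul ((contDiff_const.mul h).mul contDiff_const)).add
    (contDiff_const.mul (((contDiff_const.mul h).sub contDiff_const).pow 2))

theorem lv_fd (hR : R ≠ 0) (p v : V n) : fderiv ℝ (lv n σ R kap Gs) p v =
    ∑ i, (e0 n i + σ * (R⁻¹ * p i - e0 n i)) * v i := by
  rw [(lv_has p).fderiv, _root_.sum_apply]
  refine Finset.sum_congr rfl fun i _ => ?_
  change (R * (R⁻¹ * e0 n i) + R * (σ / 2) * (2 * (R⁻¹ * p i - e0 n i) * R⁻¹)) * v i = _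
  field_simp

theorem lv_fd2 (hR : R ≠ 0) (p v w : V n) :
    fderiv ℝ (fun p => fderiv ℝ (lv n σ R kap Gs) p v) p w = σ / R * ∑ i, v i * w i := by
  have e : (fun p => fderiv ℝ (lv n σ R kap Gs) p v) =
      fun p : V n => ∑ i, (e0 n i + σ * (R⁻¹ * p i - e0 n i)) * v i := funext fun p => lv_fd hR p v
  have h := fd_coord (φ := fun i t => (e0 n i + σ * (R⁻¹ * t - e0 n i)) * v i)
    (φ' := fun i _ => σ * R⁻¹ * v i) (fun i t => by
      have h1 : HasDerivAt (fun t : ℝ => R⁻¹ * t) R⁻¹ t := by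
        simpa using (hasDerivAt_id t).const_mul R⁻¹
      exact (((h1.sub_const (e0 n i)).const_mul σ).const_add (e0 n i)).mul_const (v i)) p
  rw [e, h.fderiv, _root_.sum_apply, Finset.mul_sum]
  refine Finset.sum_congr rfl fun i _ => ?_
  change σ * R⁻¹ * v i * w i = _
  rw [div_eq_mul_inv]; ring

theorem e0_sq (hn : 1 ≤ n) : ∑ i, e0 n i ^ 2 = 1 := H475.sq_e0' hn

/-- `|w|² = 1 + 2 σ (lv - l₀) / R`. -/
theorem lv_w2 (hn : 1 ≤ n) (hR : R ≠ 0) (p : V n) :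
    ∑ i, (e0 n i + σ * (R⁻¹ * p i - e0 n i)) ^ 2 =
      1 + 2 * σ * (lv n σ R kap Gs p - (Real.log (kap / R) - R * Gs)) / R := by
  have h0 := e0_sq hn
  have e1 : ∑ i, (e0 n i + σ * (R⁻¹ * p i - e0 n i)) ^ 2 = ∑ i, e0 n i ^ 2 +
      (2 * σ * ∑ i, R⁻¹ * p i * e0 n i - 2 * σ * ∑ i, e0 n i ^ 2 +
        σ ^ 2 * ∑ i, (R⁻¹ * p i - e0 n i) ^ 2) := by
    simp only [Finset.mul_sum]
    rw [← Finset.sum_sub_distrib, ← Finset.sum_add_distrib, ← Finset.sum_add_distrib]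
    exact Finset.sum_congr rfl fun i _ => by ring
  have e2 : lv n σ R kap Gs p - (Real.log (kap / R) - R * Gs) =
      R * (∑ i, R⁻¹ * p i * e0 n i - 1 + σ / 2 * ∑ i, (R⁻¹ * p i - e0 n i) ^ 2) := by
    unfold lv T4.gy HY.sq
    simp only [Pi.smul_apply, Pi.sub_apply, smul_eq_mul]
    ring
  rw [e1, e2, h0]
  field_simp

/-- The quadratic function. -/
theorem qd_lv (hn : 1 ≤ n) (hσ : 0 ≤ σ) (hR : 0 < R) {I : Set ℝ}
    (hI : ∀ s ∈ I, 2 * σ * (s - (Real.log (kap / R) - R * Gs)) ≤ R) :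
    Qd (lv n σ R kap Gs) (σ / R) I where
  sm := lv_cd
  c0 := div_nonneg hσ hR.le
  q2 p v := by
    rw [lv_fd2 hR.ne']
    congr 1
    exact Finset.sum_congr rfl fun i _ => (pow_two (v i)).symm
  q1 p v hp := by
    rw [lv_fd hR.ne']
    refine (Finset.sum_mul_sq_le_sq_mul_sq _ _ _).trans ?_
    refine mul_le_mul_of_nonneg_right ?_ (Finset.sum_nonneg fun i _ => sq_nonneg _)
    rw [lv_w2 (kap := kap) (Gs := Gs) hn hR.ne' p]
    have h1 := hI _ hp
    have : 2 * σ * (lv n σ R kap Gs p - (Real.log (kap / R) - R * Gs)) / R ≤ 1 := by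
      rwa [div_le_one hR]
    linarith

/-! ## The package -/

/-- `k` near the level `s₀`, half width `A`. -/
structure KL (q : Cst) (d : Pk n) (A s₀ : ℝ) (k : ℝ → ℝ) : Prop where
  sm : ContDiff ℝ ∞ k
  eq : ∀ s, |s - s₀| ≤ A → k s = s + d.μc q s
  d1 : ∀ s, 3 / 4 ≤ deriv k s ∧ deriv k s ≤ 5 / 4
  d2 : ∀ s, -(q.σ / q.R / 4) ≤ deriv (deriv k) s
  d0 : ∀ s, 2 * A ≤ |s - s₀| → deriv (deriv k) s = 0

/-- **The extension exists.** -/
theorem ex_KL (hn : 1 ≤ n) (A : Cst → ℝ) (hA : H31.EP.NB_M₀ A) (hA0 : ∀ q, 0 < A q) :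
    EvC fun q => ∀ d : Pk n, PkOk q d → ∀ s₀, sw q.Cs q.M₀ + 1 + 2 * A q ≤ s₀ →
      s₀ ≤ d.l₀ q + 4 * q.R → (∃ k, KL q d (A q) s₀ k) ∧
      Qd (lv n q.σ q.R d.kap d.Gs) (q.σ / q.R) {s | |s - s₀| ≤ 2 * A q} := by
  have e1 : EvC fun q => muG 1 * b1 1 q.M₀ ≤ 1 / 8 ∧ b1 1 q.M₀ ≤ 1 := by
    refine EvC.at_M₀ (fun _ t => muG 1 * b1 1 t ≤ 1 / 8 ∧ b1 1 t ≤ 1) fun _ => ?_
    obtain ⟨Ms, hMs⟩ := b1_small 1 (η := 1 / 8 / muG 1) (by have := muG0 1; positivity)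
    obtain ⟨Mt, hMt⟩ := b1_small 1 (η := 1) one_pos
    filter_upwards [eventually_ge_atTop Ms, eventually_ge_atTop Mt] with t ht ht'
    have := hMs t ht
    exact ⟨by rwa [le_div_iff₀ (muG0 1), mul_comm] at this, hMt t ht'⟩
  have e2 : EvC fun q => (0 < q.σ → muD 2 / q.R ≤ q.σ / 4) ∧ q.σ / q.R / 4 * A q ≤ 1 / 16 ∧
      2 * A q ≤ q.R := by
    have h := EvC.at_R (fun q t => (0 < q.σ → muD 2 / t ≤ q.σ / 4) ∧
      q.σ / t / 4 * A q ≤ 1 / 16 ∧ 2 * A q ≤ t) fun q => by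
      have h1 : ∀ᶠ t : ℝ in atTop, 0 < q.σ → muD 2 / t ≤ q.σ / 4 := by
        by_cases hσ : 0 < q.σ
        · filter_upwards [eventually_ge_atTop (4 * muD 2 / q.σ), eventually_gt_atTop 0] with t a b _
          rw [div_le_iff₀ hσ] at a
          rw [div_le_iff₀ b]
          linarith
        · exact Eventually.of_forall fun _ h => absurd h hσ
      have h2 : ∀ᶠ t : ℝ in atTop, q.σ / t / 4 * A q ≤ 1 / 16 := by
        filter_upwards [eventually_ge_atTop (4 * (q.σ * A q)), eventually_gt_atTop 0] with t a b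
        have : q.σ / t / 4 * A q = q.σ * A q / (4 * t) := by field_simp
        rw [this, div_le_iff₀ (by positivity)]
        linarith
      filter_upwards [h1, h2, eventually_ge_atTop (2 * A q)] with t a b c
      exact ⟨a, b, c⟩
    refine h.mono fun q hq => ?_
    have hb : A q.b_R = A q := by
      have h1 := hA q.b_R
      have h2 := hA q
      have h3 : q.b_R.b_M₀ = q.b_M₀ := rfl
      rw [← h1, ← h2, h3]
    have hs : q.b_R.σ = q.σ := rfl
    rw [hb, hs] at hq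
    exact hq
  refine (((H313.EP.EvC.muOk (n := n)).and (H238.C.EvC.loc n)).and (e1.and e2)).mono ?_
  rintro q ⟨⟨hmu, T, E⟩, ⟨g1, g2⟩, g3, g4, g5⟩ d hd s₀ l1 l2
  have m := hmu d hd
  have hσ := T.σ0
  have hR := T.R0
  have hA' := hA0 q
  have hμ : ContDiff ℝ ∞ (d.μc q) := m.sm
  have hμ1 : ContDiff ℝ ∞ (deriv (d.μc q)) := (contDiff_infty_iff_deriv.1 hμ).2
  have dμ : ∀ s, HasDerivAt (d.μc q) (deriv (d.μc q) s) s := fun s =>
    (hμ.differentiable (by simp) s).hasDerivAt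
  have d1 : deriv (fun s => s + d.μc q s) = fun s => 1 + deriv (d.μc q) s :=
    funext fun s => ((hasDerivAt_id s).add (dμ s)).deriv
  have d2 : deriv (deriv fun s => s + d.μc q s) = deriv (deriv (d.μc q)) := by
    rw [d1]
    exact funext fun s => deriv_const_add (1 : ℝ)
  have k2 : muD 2 * (1 / q.R) ^ 2 * b1 1 q.M₀ ≤ q.σ / q.R / 4 := by
    have h1 := g3 hσ
    have h2 := muD0 2
    calc muD 2 * (1 / q.R) ^ 2 * b1 1 q.M₀ ≤ muD 2 * (1 / q.R) ^ 2 * 1 :=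
          mul_le_mul_of_nonneg_left g2 (by positivity)
      _ = muD 2 / q.R / q.R := by field_simp
      _ ≤ q.σ / 4 / q.R := div_le_div_of_nonneg_right h1 hR.le
      _ = _ := by ring
  obtain ⟨k, a1, a2, a3, a4, a5⟩ := ext1 (h := fun s => s + d.μc q s) (s₀ := s₀) (a := A q)
    (κ := q.σ / q.R / 4) (contDiff_id.add hμ) hA' (by positivity) (fun s hs => by
      rw [d1]
      change |1 + deriv (d.μc q) s - 1| ≤ 1 / 8
      have := m.al 1 s
      rw [iteratedDeriv_one] at this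
      rw [add_sub_cancel_left]
      exact this.trans g1) (fun s hs => by
      rw [d2]
      have := (abs_le.1 hs).1
      have h1 := m.cn s (by linarith)
      linarith) g4
  refine ⟨⟨k, a1, a2, a3, a4, a5⟩, qd_lv hn hσ.le hR fun s hs => ?_⟩
  have h1 := (abs_le.1 (show |s - s₀| ≤ 2 * A q from hs)).2
  have h2 : d.l₀ q = Real.log (d.kap / q.R) - q.R * d.Gs := rfl
  have h3 : s - (Real.log (d.kap / q.R) - q.R * d.Gs) ≤ 5 * q.R := by linarith
  have h4 := T.σ1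
  have h5 : 2 * q.σ * (s - (Real.log (d.kap / q.R) - q.R * d.Gs)) ≤ 2 * q.σ * (5 * q.R) :=
    mul_le_mul_of_nonneg_left h3 (by linarith)
  have h6 : q.σ * q.R ≤ 1 / 5000 * q.R := mul_le_mul_of_nonneg_right h4 hR.le
  nlinarith

end Vale.Agent.P088.R2.H961.F
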